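import Vale.Agent.P004G.Iface
import Vale.Agent.P004.I2

/-!
# P004G/H3: lemmas for the recursion
-/

open Real MeasureTheory Set
open scoped ENNReal

namespace P004G

namespace I2Mod

export P004.I2Mod (dv_one_le dv_nonneg split_sum regroup weight_le)

variable [Crv]

lemma measurable_AjTerm (H : ℝ) (r : ℕ) (j : ℤ) (t : ℕ × ℕ × ℕ) :
    Measurable fun u => AjTerm H r j u t := by
  unfold AjTerm
  split_ifs
  · apply Measurable.mul measurable_const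
    apply Real.measurable_exp.comp
    fun_prop
  · exact measurable_const

lemma measurable_Aj (H : ℝ) (r : ℕ) (j : ℤ) : Measurable fun u => Aj H r j u := by
  unfold Aj
  exact Measurable.tsum fun t => measurable_AjTerm H r j t

/-- the `j`-th integral on the half line -/
noncomputable def TI (H θ a : ℝ) (r : ℕ) (j : ℤ) : ℝ≥0∞ :=
  ∫⁻ u in Ioi a, ENNReal.ofReal (|Aj H r j u| * u ^ (1 + 2 * θ))

lemma TI_mono (H θ a : ℝ) (ha : 0 ≤ a) (r : ℕ) (j : ℤ) : TI H θ a r j ≤ TI H θ 0 r j := by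
  unfold TI
  exact lintegral_mono_set (Ioi_subset_Ioi ha)

/-- the sum over the small `j` -/
lemma small_sum (Ca Cv : ℝ) (Aa Av : ℕ) (hCa : 0 < Ca) (θ H B : ℝ) (hθ : 0 < θ)
    (hH : 1 ≤ H) (hB : 0 < B) (r : ℕ) (ε : ℤ)
    (hA : ∀ (j₁ j₂ : ℕ), Squarefree j₁ → 0 < j₂ →
      TI H θ 0 r (ε * ((j₁ * j₂ ^ 2 : ℕ) : ℤ)) ≤
        ENNReal.ofReal (Ca * (1 / θ) ^ Aa * dv r ^ Aa * dv j₂ ^ Aa *
          (((j₁ * j₂ ^ 2 : ℕ) : ℝ) * H) ^ (-1 / 2 + θ)) * (Jm j₁ + 1))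
    (hV : ∑' n : ℕ, ENNReal.ofReal (dv n ^ Aa * (n : ℝ) ^ (-1 - θ)) ≤
      ENNReal.ofReal (Cv * (1 / θ) ^ Av)) :
    ∑ j ∈ Finset.Icc 1 ⌊B / H⌋₊, TI H θ 0 r (ε * (j : ℤ)) ≤
      ENNReal.ofReal (Ca * (1 / θ) ^ Aa * dv r ^ Aa * (B ^ (2 * θ) * (1 / √H)) *
        (Cv * (1 / θ) ^ Av)) * ∑ j ∈ sqf ⌊B / H⌋₊, ENNReal.ofReal (1 / √(j : ℝ)) * (Jm j + 1) := by
  set K := ⌊B / H⌋₊ with hK
  set c : ℝ := Ca * (1 / θ) ^ Aa * dv r ^ Aa * (B ^ (2 * θ) * (1 / √H)) with hc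
  have hdr := dv_nonneg r
  have hc0 : 0 ≤ c := by positivity
  calc ∑ j ∈ Finset.Icc 1 K, TI H θ 0 r (ε * (j : ℤ))
      ≤ ∑ p ∈ (sqf K ×ˢ Finset.Icc 1 K).filter (fun p => p.1 * p.2 ^ 2 ≤ K),
          TI H θ 0 r (ε * ((p.1 * p.2 ^ 2 : ℕ) : ℤ)) := regroup (fun j => TI H θ 0 r (ε * (j : ℤ))) K
    _ ≤ ∑ p ∈ (sqf K ×ˢ Finset.Icc 1 K).filter (fun p => p.1 * p.2 ^ 2 ≤ K),
          ENNReal.ofReal c * (ENNReal.ofReal (1 / √(p.1 : ℝ)) * (Jm p.1 + 1)) *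
            ENNReal.ofReal (dv p.2 ^ Aa * (p.2 : ℝ) ^ (-1 - θ)) := by
        apply Finset.sum_le_sum
        rintro ⟨j₁, j₂⟩ hp
        simp only [Finset.mem_filter, Finset.mem_product, sqf, Finset.mem_Icc] at hp
        obtain ⟨⟨⟨⟨h1, _⟩, hsq⟩, ⟨h2, _⟩⟩, hle⟩ := hp
        refine (hA j₁ j₂ hsq (by omega)).trans ?_
        have hd2 := dv_nonneg j₂
        have hBB : ((j₁ * j₂ ^ 2 : ℕ) : ℝ) * H ≤ B := by
          rw [← le_div_iff₀ (by linarith)]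
          exact (Nat.le_floor_iff (by positivity)).1 hle
        have hw := weight_le θ H B hθ hH j₁ j₂ h1 h2 hBB
        have e : ENNReal.ofReal c * (ENNReal.ofReal (1 / √(j₁ : ℝ)) * (Jm j₁ + 1)) *
            ENNReal.ofReal (dv j₂ ^ Aa * (j₂ : ℝ) ^ (-1 - θ)) =
            ENNReal.ofReal (c * (1 / √(j₁ : ℝ)) * (dv j₂ ^ Aa * (j₂ : ℝ) ^ (-1 - θ))) *
              (Jm j₁ + 1) := by
          rw [ENNReal.ofReal_mul (p := c * (1 / √(j₁ : ℝ))) (by positivity),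
            ENNReal.ofReal_mul (p := c) hc0]
          ring
        dsimp only
        rw [e]
        refine mul_le_mul' (ENNReal.ofReal_le_ofReal ?_) le_rfl
        calc Ca * (1 / θ) ^ Aa * dv r ^ Aa * dv j₂ ^ Aa *
              (((j₁ * j₂ ^ 2 : ℕ) : ℝ) * H) ^ (-1 / 2 + θ)
            ≤ Ca * (1 / θ) ^ Aa * dv r ^ Aa * dv j₂ ^ Aa *
              (B ^ (2 * θ) * (1 / √H) * ((j₂ : ℝ) ^ (-1 - θ) * (1 / √(j₁ : ℝ)))) := by gcongr
          _ = _ := by rw [hc]; ring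
    _ ≤ ∑ p ∈ sqf K ×ˢ Finset.Icc 1 K,
          ENNReal.ofReal c * (ENNReal.ofReal (1 / √(p.1 : ℝ)) * (Jm p.1 + 1)) *
            ENNReal.ofReal (dv p.2 ^ Aa * (p.2 : ℝ) ^ (-1 - θ)) :=
        Finset.sum_le_sum_of_subset (Finset.filter_subset _ _)
    _ = (ENNReal.ofReal c * ∑ j ∈ sqf K, (ENNReal.ofReal (1 / √(j : ℝ)) * (Jm j + 1))) *
          ∑ j₂ ∈ Finset.Icc 1 K, ENNReal.ofReal (dv j₂ ^ Aa * (j₂ : ℝ) ^ (-1 - θ)) := by
        rw [Finset.sum_product, Finset.mul_sum (sqf K), Finset.sum_mul_sum]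
    _ ≤ (ENNReal.ofReal c * ∑ j ∈ sqf K, (ENNReal.ofReal (1 / √(j : ℝ)) * (Jm j + 1))) *
          ENNReal.ofReal (Cv * (1 / θ) ^ Av) := by
        gcongr
        exact (ENNReal.sum_le_tsum _).trans hV
    _ = _ := by
        rw [ENNReal.ofReal_mul (p := c) hc0]
        ring

end I2Mod

end P004G
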