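import Vale.Agent.P004G.Iface
import Vale.Agent.P004.H3.SumGk

/-!
# P004G/H3: sums of `Gk` and divisor sums (nothing depends on the coefficients)
-/

namespace P004G.H3

export P004.H3 (Gk_le_inv_sq sum_inv_sq_le sum_Gk exp_neg_le_rpow sum_dv_exp)

end P004G.H3
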